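import Vale.Agent.P032.Words.H349.TieSym

/-!
# P032: words with triple letters, made into tie words

`Pre X`: the axioms of `RawT` except `two`.  `Sp X S o j g ε δ`: `S` is a finite set of special angles
(modulo 6): at `Q ∈ S` the letter `j Q ∈ {2, 3}` ends and both letters `0, 1` are present, the angles
`Q ± 1` carry the other pair letter only.  A short run `[Q, Q + o δ]` of the letter `g Q ∈ {0, 1}` is
written over (`AX`).  The result is a tie word (`rawT_aug`), the marks of the new word are marks of the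
old one, with the letter `g Q` at `Q ∈ S` (`aug_mark`), clean ends stay clean ends (`aug_end`), and
`Q ∈ S` is a clean end of type `(g Q, j Q)` (`aug_new`).
-/

open Set Filter Topology

namespace Vale.Agent.P032.H350

open Vale.Agent.P032.Words

/-- the axioms of a tie word except `two` -/
structure Pre (X : Fin 4 → Set ℝ) : Prop where
  closed : ∀ l, IsClosed (X l)
  cover : ∀ u, ∃ l, u ∈ X l
  per : ∀ l u, u + 6 ∈ X l ↔ u ∈ X l
  anti : ∀ u, u ∈ X 2 → u + 3 ∉ X 3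
  ac : ∀ u, u ∈ X 2 → u ∉ X 3
  own : ∀ u l, u ∈ X l → u + 1 ∈ X l → ∃ m, m ≠ l ∧ u ∈ X m
  own' : ∀ u l, u ∈ X l → u + 1 ∈ X l → ∃ m, m ≠ l ∧ u + 1 ∈ X m
  swap : ∀ u l m, u ∈ X l → u + 1 ∈ X l → u ∈ X m → u + 1 ∈ X m → l = m
  dbl : ∀ u l m, l ≠ m → u ∈ X l → u + 1 ∈ X l → u + 1 ∈ X m → u + 2 ∈ X m →
    l.val < 2 ∧ m.val < 2
  three : ∀ u l m, l ≠ m → u ∈ X l → u + 1 ∈ X l → u + 1 ∈ X m → u + 2 ∈ X m →
    ¬ (u ∈ X 2 ∧ u + 2 ∈ X 3) ∧ ¬ (u ∈ X 3 ∧ u + 2 ∈ X 2)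

/-- the other letter: `0 ↔ 1`, `2 ↔ 3` -/
def oth : Fin 4 → Fin 4 := ![1, 0, 3, 2]

/-- the special angles -/
structure Sp (X : Fin 4 → Set ℝ) (S : Set ℝ) (o : ℝ → ℝ) (j g : ℝ → Fin 4) (ε : ℝ)
    (δ : ℝ → ℝ) : Prop where
  fin : S.Finite
  eps : 0 < ε
  eps4 : ε ≤ 1 / 4
  ho : ∀ Q ∈ S, o Q = 1 ∨ o Q = -1
  hj : ∀ Q ∈ S, j Q = 2 ∨ j Q = 3
  hg : ∀ Q ∈ S, g Q = 0 ∨ g Q = 1
  mem : ∀ Q ∈ S, Q ∈ X 0 ∧ Q ∈ X 1 ∧ Q ∈ X (j Q)
  d0 : ∀ Q ∈ S, 0 < δ Q
  d1 : ∀ Q ∈ S, δ Q < ε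
  dj : ∀ Q ∈ S, Q + o Q * δ Q ∉ X (j Q)
  near : ∀ Q ∈ S, ∀ t, |t| < ε → Q + t ∉ X (oth (j Q))
  arc : ∀ Q ∈ S, ∀ t ∈ Ioo 0 ε, ∀ l, Q - o Q * t ∈ X l → l = j Q
  nbr : ∀ Q ∈ S, ∀ t, |t| < 2 * ε → ∀ l, (Q + t + 1 ∈ X l ∨ Q + t - 1 ∈ X l) → l = oth (j Q)
  disj : ∀ Q ∈ S, ∀ Q' ∈ S, ∀ n : ℤ, |Q' - Q - 6 * n| < 2 * ε → Q' = Q ∧ n = 0
  two : ∀ u, (∀ Q ∈ S, ∀ n : ℤ, u ≠ Q + 6 * n) → ∀ l m n, u ∈ X l → u ∈ X m → u ∈ X n →
    l = m ∨ m = n ∨ n = l

variable {X : Fin 4 → Set ℝ} {S : Set ℝ} {o : ℝ → ℝ} {j g : ℝ → Fin 4} {ε : ℝ} {δ : ℝ → ℝ}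

theorem Pre.perZ (R : Pre X) (n : ℤ) (l : Fin 4) (u : ℝ) : u + 6 * (n : ℝ) ∈ X l ↔ u ∈ X l := by
  induction n with
  | zero => simp
  | succ i ih =>
    have : u + 6 * (((i : ℤ) + 1 : ℤ) : ℝ) = (u + 6 * ((i : ℤ) : ℝ)) + 6 := by push_cast; ring
    rw [this, R.per, ih]
  | pred i ih =>
    have : u + 6 * ((-(i : ℤ) - 1 : ℤ) : ℝ) + 6 = u + 6 * ((-(i : ℤ) : ℤ) : ℝ) := by
      push_cast; ring
    rw [← R.per, this, ih]

/-- the coordinate of `u` at the copy `n` of `Q` -/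
def tc (o : ℝ → ℝ) (Q : ℝ) (n : ℤ) (u : ℝ) : ℝ := o Q * (u - Q - 6 * n)

/-- the written run -/
def Run (S : Set ℝ) (o δ : ℝ → ℝ) (G : ℝ → Prop) : Set ℝ :=
  {u | ∃ Q ∈ S, G Q ∧ ∃ n : ℤ, tc o Q n u ∈ Icc 0 (δ Q)}

/-- the removed part of the letter `oth (g Q)` -/
def RemG (S : Set ℝ) (o : ℝ → ℝ) (ε : ℝ) (δ : ℝ → ℝ) (G : ℝ → Prop) : Set ℝ :=
  {u | ∃ Q ∈ S, G Q ∧ ∃ n : ℤ, tc o Q n u ∈ Ioo (-ε) (δ Q)}

/-- the removed part of the letter `j Q` -/
def RemJ (S : Set ℝ) (o δ : ℝ → ℝ) (G : ℝ → Prop) : Set ℝ :=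
  {u | ∃ Q ∈ S, G Q ∧ ∃ n : ℤ, tc o Q n u ∈ Ioo 0 (δ Q)}

/-- the word with the runs written over -/
def AX (X : Fin 4 → Set ℝ) (S : Set ℝ) (o : ℝ → ℝ) (j g : ℝ → Fin 4) (ε : ℝ) (δ : ℝ → ℝ)
    (l : Fin 4) : Set ℝ :=
  ((X l \ RemG S o ε δ (fun Q => l = oth (g Q))) \ RemJ S o δ (fun Q => l = j Q)) ∪
    Run S o δ (fun Q => l = g Q)

theorem isOpen_rem (S : Set ℝ) (o : ℝ → ℝ) (G : ℝ → Prop) (I : ℝ → Set ℝ)
    (hI : ∀ Q, IsOpen (I Q)) : IsOpen {u | ∃ Q ∈ S, G Q ∧ ∃ n : ℤ, tc o Q n u ∈ I Q} := by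
  have : {u | ∃ Q ∈ S, G Q ∧ ∃ n : ℤ, tc o Q n u ∈ I Q} =
      ⋃ Q ∈ S, ⋃ (_ : G Q), ⋃ n : ℤ, tc o Q n ⁻¹' I Q := by
    ext u
    simp only [mem_ofPred_eq, mem_iUnion, mem_preimage, exists_prop]
  rw [this]
  refine isOpen_biUnion fun Q _ => isOpen_iUnion fun _ => isOpen_iUnion fun n => ?_
  exact (hI Q).preimage (by unfold tc; fun_prop)

/-- a run is closed -/
theorem isClosed_run (hS : Sp X S o j g ε δ) (G : ℝ → Prop) : IsClosed (Run S o δ G) := by
  have : Run S o δ G = ⋃ Q ∈ S, {u | G Q ∧ ∃ n : ℤ, tc o Q n u ∈ Icc 0 (δ Q)} := by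
    ext u
    simp only [Run, mem_ofPred_eq, mem_iUnion, exists_prop]
  rw [this]
  refine hS.fin.isClosed_biUnion fun Q hQ => ?_
  by_cases hG : G Q
  swap
  · have : {u | G Q ∧ ∃ n : ℤ, tc o Q n u ∈ Icc 0 (δ Q)} = ∅ := by
      ext u; simp [hG]
    rw [this]; exact isClosed_empty
  have hd0 := hS.d0 Q hQ
  have hd1 := hS.d1 Q hQ
  have he4 := hS.eps4
  have e : {u | G Q ∧ ∃ n : ℤ, tc o Q n u ∈ Icc 0 (δ Q)} =
      (⋃ n : ℤ, tc o Q n ⁻¹' Ioo (δ Q) 6)ᶜ := by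
    ext u
    simp only [mem_ofPred_eq, hG, true_and, mem_compl_iff, mem_iUnion, mem_preimage, not_exists]
    constructor
    · rintro ⟨n, h1, h2⟩ m ⟨h3, h4⟩
      -- `tc n - tc m = 6 o (m - n)`
      have e1 : tc o Q n u - tc o Q m u = 6 * o Q * ((m : ℝ) - n) := by unfold tc; ring
      rcases hS.ho Q hQ with ho | ho
      · rw [ho] at e1
        have a1 : ((m : ℝ) - n) < 0 := by linarith
        have a2 : -1 < ((m : ℝ) - n) := by linarith
        have b1 : ((m - n : ℤ) : ℝ) < 0 := by push_cast; exact a1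
        have b2 : ((-1 : ℤ) : ℝ) < ((m - n : ℤ) : ℝ) := by push_cast; exact a2
        have c1 : m - n < 0 := by exact_mod_cast b1
        have c2 : -1 < m - n := by exact_mod_cast b2
        omega
      · rw [ho] at e1
        have a1 : 0 < ((m : ℝ) - n) := by linarith
        have a2 : ((m : ℝ) - n) < 1 := by linarith
        have b1 : ((0 : ℤ) : ℝ) < ((m - n : ℤ) : ℝ) := by push_cast; exact a1
        have b2 : ((m - n : ℤ) : ℝ) < ((1 : ℤ) : ℝ) := by push_cast; exact a2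
        have c1 : 0 < m - n := by exact_mod_cast b1
        have c2 : m - n < 1 := by exact_mod_cast b2
        omega
    · intro h
      -- the representative in `[0, 6)`
      obtain ⟨n, hn0, hn6⟩ : ∃ n : ℤ, 0 ≤ tc o Q n u ∧ tc o Q n u < 6 := by
        rcases hS.ho Q hQ with ho | ho
        · refine ⟨⌊(u - Q) / 6⌋, ?_, ?_⟩
          · have := Int.floor_le ((u - Q) / 6)
            unfold tc; rw [ho]; linarith
          · have := Int.lt_floor_add_one ((u - Q) / 6)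
            unfold tc; rw [ho]; linarith
        · refine ⟨-⌊-(u - Q) / 6⌋, ?_, ?_⟩
          · have := Int.floor_le (-(u - Q) / 6)
            unfold tc; rw [ho]; push_cast; linarith
          · have := Int.lt_floor_add_one (-(u - Q) / 6)
            unfold tc; rw [ho]; push_cast; linarith
      refine ⟨n, hn0, ?_⟩
      by_contra hc
      exact h n ⟨not_le.1 hc, hn6⟩
  rw [e]
  refine (isOpen_iUnion fun n => ?_).isClosed_compl
  exact isOpen_Ioo.preimage (by unfold tc; fun_prop)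


/-- no run at `u` -/
def Off (S : Set ℝ) (o δ : ℝ → ℝ) (u : ℝ) : Prop := ∀ Q ∈ S, ∀ n : ℤ, tc o Q n u ∉ Icc 0 (δ Q)

/-- not close to a special angle -/
def Far (S : Set ℝ) (ε : ℝ) (u : ℝ) : Prop := ∀ Q ∈ S, ∀ n : ℤ, ε ≤ |u - Q - 6 * n|

theorem oth_ne (l : Fin 4) : oth l ≠ l := by revert l; decide

theorem oth_lt {l : Fin 4} (h : l = 0 ∨ l = 1) : oth l = 0 ∨ oth l = 1 := by
  revert l; decide

theorem oth_ge {l : Fin 4} (h : l = 2 ∨ l = 3) : oth l = 2 ∨ oth l = 3 := by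
  revert l; decide

/-- the letters `0, 1` and `2, 3` are different -/
theorem lt_ne_ge {l m : Fin 4} (h : l = 0 ∨ l = 1) (h' : m = 2 ∨ m = 3) : l ≠ m := by
  revert l m; decide

theorem tc_eq (hS : Sp X S o j g ε δ) {Q : ℝ} (hQ : Q ∈ S) (n : ℤ) (u : ℝ) :
    u = Q + 6 * n + o Q * tc o Q n u := by
  unfold tc
  rcases hS.ho Q hQ with h | h <;> rw [h] <;> ring

theorem abs_tc (hS : Sp X S o j g ε δ) {Q : ℝ} (hQ : Q ∈ S) (n : ℤ) (u : ℝ) :
    |tc o Q n u| = |u - Q - 6 * n| := by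
  unfold tc
  rw [abs_mul]
  rcases hS.ho Q hQ with h | h <;> rw [h] <;> simp

theorem Far.off (hS : Sp X S o j g ε δ) {u : ℝ} (h : Far S ε u) : Off S o δ u := by
  intro Q hQ n ht
  have h1 := h Q hQ n
  rw [← abs_tc hS hQ, abs_of_nonneg ht.1] at h1
  have h2 := hS.d1 Q hQ
  linarith [ht.2]

/-- membership in the copies -/
theorem mem_shift (R : Pre X) (n : ℤ) {l : Fin 4} {u : ℝ} : u - 6 * n ∈ X l ↔ u ∈ X l := by
  have := R.perZ n l (u - 6 * n)
  rw [sub_add_cancel] at this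
  exact this.symm

/-- off the runs nothing is changed -/
theorem ax_off (R : Pre X) (hS : Sp X S o j g ε δ) {u : ℝ} (h : Off S o δ u) (l : Fin 4) :
    u ∈ AX X S o j g ε δ l ↔ u ∈ X l := by
  unfold AX
  constructor
  · rintro (h1 | ⟨Q, hQ, -, n, h1⟩)
    · exact h1.1.1
    · exact absurd h1 (h Q hQ n)
  · intro h1
    refine Or.inl ⟨⟨h1, ?_⟩, ?_⟩
    · rintro ⟨Q, hQ, hl, n, h2⟩
      have h3 : tc o Q n u < 0 := by
        by_contra hc
        exact h Q hQ n ⟨not_lt.1 hc, h2.2.le⟩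
      have h4 := hS.arc Q hQ (-tc o Q n u) ⟨by linarith, by linarith [h2.1]⟩ l (by
        have e := tc_eq hS hQ n u
        have e2 : Q - o Q * -tc o Q n u = u - 6 * n := by linear_combination -e
        rw [e2, mem_shift R]; exact h1)
      have hl' : l = oth (g Q) := hl
      exact lt_ne_ge (oth_lt (hS.hg Q hQ)) (hS.hj Q hQ) (hl'.symm.trans h4)
    · rintro ⟨Q, hQ, -, n, h2⟩
      exact h Q hQ n ⟨h2.1.le, h2.2.le⟩

/-- the copy of a special angle close to `u` is unique -/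
theorem uniq (hS : Sp X S o j g ε δ) {Q Q' : ℝ} (hQ : Q ∈ S) (hQ' : Q' ∈ S) {n n' : ℤ} {u : ℝ}
    (h : |u - Q - 6 * n| < ε) (h' : |u - Q' - 6 * n'| < ε) : Q' = Q ∧ n' = n := by
  have h1 : |Q' - Q - 6 * ((n - n' : ℤ) : ℝ)| < 2 * ε := by
    have e : Q' - Q - 6 * ((n - n' : ℤ) : ℝ) = (u - Q - 6 * n) - (u - Q' - 6 * n') := by
      push_cast; ring
    rw [e]
    calc _ ≤ |u - Q - 6 * n| + |u - Q' - 6 * n'| := abs_sub _ _
      _ < 2 * ε := by linarith
  obtain ⟨h2, h3⟩ := hS.disj Q hQ Q' hQ' _ h1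
  exact ⟨h2, by omega⟩

/-- the letters in a run -/
theorem ax_run (R : Pre X) (hS : Sp X S o j g ε δ) {u : ℝ} {Q : ℝ} (hQ : Q ∈ S) {n : ℤ}
    (ht : tc o Q n u ∈ Icc 0 (δ Q)) {l : Fin 4} (hl : u ∈ AX X S o j g ε δ l) :
    (l = 0 ∨ l = 1) ∨ (l = j Q ∧ tc o Q n u = 0) := by
  by_contra hc
  push Not at hc
  obtain ⟨⟨hl0, hl1⟩, hlj⟩ := hc
  have hd1 := hS.d1 Q hQ
  have hnear : |u - Q - 6 * n| < ε := by
    rw [← abs_tc hS hQ, abs_of_nonneg ht.1]; linarith [ht.2]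
  have key01 : ∀ l : Fin 4, l ≠ 0 → l ≠ 1 → l = 2 ∨ l = 3 := by decide
  have hl23 : l = 2 ∨ l = 3 := key01 l hl0 hl1
  rcases hl with h1 | ⟨Q', hQ', hl', n', h1⟩
  · -- an old letter
    have e := tc_eq hS hQ n u
    have hne : l ≠ oth (j Q) := by
      rintro rfl
      refine hS.near Q hQ (o Q * tc o Q n u) ?_ (?_ : _)
      · rw [abs_mul]
        rcases hS.ho Q hQ with h | h <;> rw [h] <;> simp <;>
          rw [abs_of_nonneg ht.1] <;> linarith [ht.2]
      · have e2 : Q + o Q * tc o Q n u = u - 6 * n := by linear_combination -e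
        rw [e2, mem_shift R]; exact h1.1.1
    have hj : l = j Q := by
      rcases hS.hj Q hQ with h | h <;> rw [h] at hne ⊢ <;> rcases hl23 with rfl | rfl
      · rfl
      · exact absurd rfl hne
      · exact absurd rfl hne
      · rfl
    have h0 : tc o Q n u ≠ 0 := hlj hj
    have hpos : 0 < tc o Q n u := lt_of_le_of_ne ht.1 (Ne.symm h0)
    rcases eq_or_lt_of_le ht.2 with h2 | h2
    · refine hS.dj Q hQ ?_
      rw [← h2, ← hj]
      have e2 : Q + o Q * tc o Q n u = u - 6 * n := by linear_combination -e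
      rw [e2, mem_shift R]; exact h1.1.1
    · exact h1.2 ⟨Q, hQ, hj, n, hpos, h2⟩
  · have : l = g Q' := hl'
    exact lt_ne_ge (hS.hg Q' hQ') hl23 this.symm

/-- at the special angle -/
theorem ax_spec (R : Pre X) (hS : Sp X S o j g ε δ) {Q : ℝ} (hQ : Q ∈ S) (n : ℤ) {l : Fin 4} :
    Q + 6 * n ∈ AX X S o j g ε δ l ↔ l = g Q ∨ l = j Q := by
  have hd0 := hS.d0 Q hQ
  have hd1 := hS.d1 Q hQ
  have he := hS.eps
  have t0 : tc o Q n (Q + 6 * n) = 0 := by unfold tc; ring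
  have hin : tc o Q n (Q + 6 * n) ∈ Icc 0 (δ Q) := by rw [t0]; exact ⟨le_rfl, hd0.le⟩
  have hnear : |Q + 6 * n - Q - 6 * n| < ε := by
    have : Q + 6 * (n : ℝ) - Q - 6 * n = 0 := by ring
    rw [this, abs_zero]; exact he
  constructor
  · intro h
    rcases ax_run R hS hQ hin h with h1 | h1
    · left
      rcases h with h2 | ⟨Q', hQ', hl', n', h2⟩
      · by_contra hne
        refine h2.1.2 ⟨Q, hQ, ?_, n, ?_⟩
        · show l = oth (g Q)
          rcases hS.hg Q hQ with h3 | h3 <;> rw [h3] at hne ⊢ <;> rcases h1 with rfl | rfl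
          · exact absurd rfl hne
          · rfl
          · rfl
          · exact absurd rfl hne
        · rw [t0]; exact ⟨by linarith, hd0⟩
      · have h3 : |Q + 6 * n - Q' - 6 * n'| < ε := by
          rw [← abs_tc hS hQ', abs_of_nonneg h2.1]
          linarith [h2.2, hS.d1 Q' hQ']
        obtain ⟨rfl, -⟩ := uniq hS hQ hQ' hnear h3
        exact hl'
    · exact Or.inr h1.1
  · rintro (rfl | rfl)
    · exact Or.inr ⟨Q, hQ, rfl, n, hin⟩
    · refine Or.inl ⟨⟨?_, ?_⟩, ?_⟩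
      · rw [R.perZ]; exact (hS.mem Q hQ).2.2
      · rintro ⟨Q', hQ', hl', -⟩
        exact lt_ne_ge (oth_lt (hS.hg Q' hQ')) (hS.hj Q hQ) (Eq.symm hl')
      · rintro ⟨Q', hQ', -, n', h2⟩
        have h3 : |Q + 6 * n - Q' - 6 * n'| < ε := by
          rw [← abs_tc hS hQ', abs_of_nonneg h2.1.le]
          linarith [h2.2, hS.d1 Q' hQ']
        obtain ⟨rfl, rfl⟩ := uniq hS hQ hQ' hnear h3
        rw [t0] at h2
        exact lt_irrefl _ h2.1

/-- the letters close to a special angle -/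
theorem ax_near (R : Pre X) (hS : Sp X S o j g ε δ) {u : ℝ} {Q : ℝ} (hQ : Q ∈ S) {n : ℤ}
    (ht : |u - Q - 6 * n| < ε) {l : Fin 4} (hl : u ∈ AX X S o j g ε δ l) : l ≠ oth (j Q) := by
  rintro rfl
  by_cases hoff : Off S o δ u
  · rw [ax_off R hS hoff] at hl
    refine hS.near Q hQ (u - Q - 6 * n) ht ?_
    have e : Q + (u - Q - 6 * (n : ℝ)) = u - 6 * n := by ring
    rw [e, mem_shift R]; exact hl
  · unfold Off at hoff
    push Not at hoff
    obtain ⟨Q', hQ', n', h1⟩ := hoff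
    have h3 : |u - Q' - 6 * n'| < ε := by
      rw [← abs_tc hS hQ', abs_of_nonneg h1.1]
      linarith [h1.2, hS.d1 Q' hQ']
    obtain ⟨rfl, rfl⟩ := uniq hS hQ hQ' ht h3
    rcases ax_run R hS hQ' h1 hl with h2 | h2
    · exact lt_ne_ge h2 (oth_ge (hS.hj _ hQ')) rfl
    · exact oth_ne _ h2.1

/-- the neighbours of a special angle are off the runs -/
theorem off_nbr (R : Pre X) (hS : Sp X S o j g ε δ) {u : ℝ} {Q : ℝ} (hQ : Q ∈ S) {n : ℤ}
    (ht : |u - Q - 6 * n| < ε) {s : ℝ} (hs : s = 1 ∨ s = -1) : Off S o δ (u + s) := by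
  intro Q' hQ' n' h1
  have h3 : |u + s - Q' - 6 * n'| < ε := by
    rw [← abs_tc hS hQ', abs_of_nonneg h1.1]
    linarith [h1.2, hS.d1 Q' hQ']
  have h4 : |Q' + 6 * n' - 6 * n - Q - s| < 2 * ε := by
    have e : Q' + 6 * n' - 6 * n - Q - s = (u - Q - 6 * n) - (u + s - Q' - 6 * n') := by ring
    rw [e]
    calc _ ≤ |u - Q - 6 * n| + |u + s - Q' - 6 * n'| := abs_sub _ _
      _ < 2 * ε := by linarith
  have hm := hS.mem Q' hQ'
  have key : ∀ l, Q' ∈ X l → l = oth (j Q) := by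
    intro l hl
    refine hS.nbr Q hQ _ h4 l ?_
    have e1 : Q' = (Q' + 6 * n' - 6 * n) + 6 * ((n - n' : ℤ) : ℝ) := by push_cast; ring
    have h5 : Q' + 6 * n' - 6 * n ∈ X l := by
      rw [e1, R.perZ] at hl; exact hl
    rcases hs with rfl | rfl
    · left
      have e2 : Q + (Q' + 6 * n' - 6 * n - Q - 1) + 1 = Q' + 6 * n' - 6 * n := by ring
      rw [e2]; exact h5
    · right
      have e2 : Q + (Q' + 6 * n' - 6 * n - Q - -1) - 1 = Q' + 6 * n' - 6 * n := by ring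
      rw [e2]; exact h5
  have h0 := key 0 hm.1
  have h1 := key 1 hm.2.1
  exact absurd (h0.trans h1.symm) (by decide)

/-- the letters of the neighbours of a special angle -/
theorem ax_nbr (R : Pre X) (hS : Sp X S o j g ε δ) {u : ℝ} {Q : ℝ} (hQ : Q ∈ S) {n : ℤ}
    (ht : |u - Q - 6 * n| < ε) {s : ℝ} (hs : s = 1 ∨ s = -1) {l : Fin 4}
    (hl : u + s ∈ AX X S o j g ε δ l) : l = oth (j Q) := by
  rw [ax_off R hS (off_nbr R hS hQ ht hs)] at hl
  refine hS.nbr Q hQ (u - Q - 6 * n) (by linarith [hS.eps]) l ?_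
  rw [← mem_shift R n] at hl
  rcases hs with rfl | rfl
  · left
    have e : Q + (u - Q - 6 * (n : ℝ)) + 1 = u + 1 - 6 * n := by ring
    rw [e]; exact hl
  · right
    have e : Q + (u - Q - 6 * (n : ℝ)) - 1 = u + -1 - 6 * n := by ring
    rw [e]; exact hl

/-- a letter shared with a neighbour: both angles are far from the special ones -/
theorem far_of_shared (R : Pre X) (hS : Sp X S o j g ε δ) {u : ℝ} {l : Fin 4}
    (h1 : u ∈ AX X S o j g ε δ l) (h2 : u + 1 ∈ AX X S o j g ε δ l) :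
    Far S ε u ∧ Far S ε (u + 1) := by
  constructor
  · intro Q hQ n
    by_contra hc
    exact ax_near R hS hQ (not_le.1 hc) h1 (ax_nbr R hS hQ (not_le.1 hc) (Or.inl rfl) h2)
  · intro Q hQ n
    by_contra hc
    refine ax_near R hS hQ (not_le.1 hc) h2 (ax_nbr R hS hQ (not_le.1 hc) (s := -1) (Or.inr rfl) ?_)
    have e : u + 1 + -1 = u := by ring
    rw [e]; exact h1

theorem ax_far (R : Pre X) (hS : Sp X S o j g ε δ) {u : ℝ} (h : Far S ε u) (l : Fin 4) :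
    u ∈ AX X S o j g ε δ l ↔ u ∈ X l := ax_off R hS (h.off hS) l

/-- a pair letter of the new word is one of the old word -/
theorem ax_pair (hS : Sp X S o j g ε δ) {u : ℝ} {l : Fin 4} (hl : l = 2 ∨ l = 3)
    (h : u ∈ AX X S o j g ε δ l) : u ∈ X l := by
  rcases h with h | ⟨Q, hQ, hg, -⟩
  · exact h.1.1
  · exact absurd (Eq.symm hg) (lt_ne_ge (hS.hg Q hQ) hl)

/-- **The new word is a tie word.** -/
theorem rawT_aug (R : Pre X) (hS : Sp X S o j g ε δ) : RawT (AX X S o j g ε δ) where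
  closed := fun l => by
    unfold AX
    refine IsClosed.union ?_ (isClosed_run hS _)
    have o1 : IsOpen (RemG S o ε δ fun Q => l = oth (g Q)) :=
      isOpen_rem S o _ (fun Q => Ioo (-ε) (δ Q)) fun _ => isOpen_Ioo
    have o2 : IsOpen (RemJ S o δ fun Q => l = j Q) :=
      isOpen_rem S o _ (fun Q => Ioo 0 (δ Q)) fun _ => isOpen_Ioo
    exact ((R.closed l).sdiff o1).sdiff o2
  cover := fun u => by
    by_cases hoff : Off S o δ u
    · obtain ⟨l, hl⟩ := R.cover u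
      exact ⟨l, (ax_off R hS hoff l).2 hl⟩
    · unfold Off at hoff
      push Not at hoff
      obtain ⟨Q, hQ, n, h1⟩ := hoff
      exact ⟨g Q, Or.inr ⟨Q, hQ, rfl, n, h1⟩⟩
  per := fun l u => by
    have key : ∀ (G : ℝ → Prop) (I : ℝ → Set ℝ),
        (∃ Q ∈ S, G Q ∧ ∃ n : ℤ, tc o Q n (u + 6) ∈ I Q) ↔
          ∃ Q ∈ S, G Q ∧ ∃ n : ℤ, tc o Q n u ∈ I Q := by
      intro G I
      constructor
      · rintro ⟨Q, hQ, hG, n, h⟩
        refine ⟨Q, hQ, hG, n - 1, ?_⟩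
        have e : tc o Q (n - 1) u = tc o Q n (u + 6) := by unfold tc; push_cast; ring
        rw [e]; exact h
      · rintro ⟨Q, hQ, hG, n, h⟩
        refine ⟨Q, hQ, hG, n + 1, ?_⟩
        have e : tc o Q (n + 1) (u + 6) = tc o Q n u := by unfold tc; push_cast; ring
        rw [e]; exact h
    unfold AX RemG RemJ Run
    simp only [mem_union, Set.mem_sdiff, mem_ofPred_eq]
    rw [R.per, key _ fun Q => Ioo (-ε) (δ Q), key _ fun Q => Ioo 0 (δ Q), key _ fun Q => Icc 0 (δ Q)]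
  anti := fun u h h' =>
    R.anti u (ax_pair hS (Or.inl rfl) h) (ax_pair hS (Or.inr rfl) h')
  ac := fun u h h' => R.ac u (ax_pair hS (Or.inl rfl) h) (ax_pair hS (Or.inr rfl) h')
  two := fun u l m n h1 h2 h3 => by
    by_cases hoff : Off S o δ u
    · rw [ax_off R hS hoff] at h1 h2 h3
      refine hS.two u (fun Q hQ k hk => ?_) l m n h1 h2 h3
      refine hoff Q hQ k ?_
      have : tc o Q k u = 0 := by rw [hk]; unfold tc; ring
      rw [this]; exact ⟨le_rfl, (hS.d0 Q hQ).le⟩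
    · unfold Off at hoff
      push Not at hoff
      obtain ⟨Q, hQ, k, ht⟩ := hoff
      by_cases h0 : tc o Q k u = 0
      · have e : u = Q + 6 * k := by
          have := tc_eq hS hQ k u
          rw [h0, mul_zero, add_zero] at this; exact this
        rw [e, ax_spec R hS hQ] at h1 h2 h3
        rcases h1 with rfl | rfl <;> rcases h2 with rfl | rfl <;> rcases h3 with rfl | rfl <;> simp
      · have r1 := (ax_run R hS hQ ht h1).resolve_right fun h => h0 h.2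
        have r2 := (ax_run R hS hQ ht h2).resolve_right fun h => h0 h.2
        have r3 := (ax_run R hS hQ ht h3).resolve_right fun h => h0 h.2
        rcases r1 with rfl | rfl <;> rcases r2 with rfl | rfl <;> rcases r3 with rfl | rfl <;> simp
  own := fun u l h1 h2 => by
    obtain ⟨f1, f2⟩ := far_of_shared R hS h1 h2
    rw [ax_far R hS f1] at h1
    rw [ax_far R hS f2] at h2
    obtain ⟨m, hm, h⟩ := R.own u l h1 h2
    exact ⟨m, hm, (ax_far R hS f1 m).2 h⟩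
  own' := fun u l h1 h2 => by
    obtain ⟨f1, f2⟩ := far_of_shared R hS h1 h2
    rw [ax_far R hS f1] at h1
    rw [ax_far R hS f2] at h2
    obtain ⟨m, hm, h⟩ := R.own' u l h1 h2
    exact ⟨m, hm, (ax_far R hS f2 m).2 h⟩
  swap := fun u l m h1 h2 h3 h4 => by
    obtain ⟨f1, f2⟩ := far_of_shared R hS h1 h2
    rw [ax_far R hS f1] at h1 h3
    rw [ax_far R hS f2] at h2 h4
    exact R.swap u l m h1 h2 h3 h4
  dbl := fun u l m hlm h1 h2 h3 h4 => by
    obtain ⟨f1, f2⟩ := far_of_shared R hS h1 h2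
    have e : u + 1 + 1 = u + 2 := by ring
    obtain ⟨-, f3⟩ := far_of_shared R hS h3 (by rw [e]; exact h4)
    rw [e] at f3
    rw [ax_far R hS f1] at h1
    rw [ax_far R hS f2] at h2 h3
    rw [ax_far R hS f3] at h4
    exact R.dbl u l m hlm h1 h2 h3 h4
  three := fun u l m hlm h1 h2 h3 h4 => by
    obtain ⟨f1, f2⟩ := far_of_shared R hS h1 h2
    have e : u + 1 + 1 = u + 2 := by ring
    obtain ⟨-, f3⟩ := far_of_shared R hS h3 (by rw [e]; exact h4)
    rw [e] at f3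
    rw [ax_far R hS f1] at h1
    rw [ax_far R hS f2] at h2 h3
    rw [ax_far R hS f3] at h4
    rw [ax_far R hS f1, ax_far R hS f1, ax_far R hS f3, ax_far R hS f3]
    exact R.three u l m hlm h1 h2 h3 h4

/-- **The marks of the new word.** -/
theorem aug_mark (R : Pre X) (hS : Sp X S o j g ε δ) {u : ℝ} {l m : Fin 4} (hl : l = 0 ∨ l = 1)
    (hm : m = 2 ∨ m = 3) (h1 : u ∈ AX X S o j g ε δ l) (h2 : u ∈ AX X S o j g ε δ m) :
    u ∈ X l ∧ u ∈ X m ∧ ∀ Q ∈ S, ∀ n : ℤ, u = Q + 6 * n → l = g Q ∧ m = j Q := by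
  have last : ∀ Q ∈ S, ∀ n : ℤ, u = Q + 6 * n → l = g Q ∧ m = j Q := by
    rintro Q hQ n rfl
    rw [ax_spec R hS hQ] at h1 h2
    exact ⟨h1.resolve_right (lt_ne_ge hl (hS.hj Q hQ)),
      h2.resolve_left fun h => lt_ne_ge (hS.hg Q hQ) hm h.symm⟩
  refine ⟨?_, ax_pair hS hm h2, last⟩
  by_cases hoff : Off S o δ u
  · exact (ax_off R hS hoff l).1 h1
  · unfold Off at hoff
    push Not at hoff
    obtain ⟨Q, hQ, k, ht⟩ := hoff
    rcases ax_run R hS hQ ht h2 with h3 | h3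
    · exact absurd rfl (lt_ne_ge h3 hm)
    · have e : u = Q + 6 * k := by
        have := tc_eq hS hQ k u
        rw [h3.2, mul_zero, add_zero] at this; exact this
      rw [e, R.perZ]
      rcases hl with rfl | rfl
      · exact (hS.mem Q hQ).1
      · exact (hS.mem Q hQ).2.1

/-- off the runs is an open condition -/
theorem ev_off (hS : Sp X S o j g ε δ) {V : ℝ} (hV : Off S o δ V) : ∀ᶠ u in 𝓝 V, Off S o δ u := by
  have h1 : V ∈ (Run S o δ fun _ => True)ᶜ := by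
    rintro ⟨Q, hQ, -, n, h⟩
    exact hV Q hQ n h
  filter_upwards [(isClosed_run hS _).isOpen_compl.mem_nhds h1] with u hu Q hQ n h
  exact hu ⟨Q, hQ, trivial, n, h⟩

/-- **Clean ends stay clean ends.** -/
theorem aug_end (R : Pre X) (hS : Sp X S o j g ε δ) {V : ℝ} (hV : Off S o δ V) {x y : Fin 4}
    (h : End X x y V) : End (AX X S o j g ε δ) x y V := by
  have key : ∀ {a b : Fin 4}, Mark X a b V → Mark (AX X S o j g ε δ) a b V := by
    intro a b hm
    refine ⟨(ax_off R hS hV _).2 hm.mem_a, (ax_off R hS hV _).2 hm.mem_b,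
      fun l hl => hm.only l ((ax_off R hS hV _).1 hl), ?_, ?_⟩
    · filter_upwards [hm.left, (ev_off hS hV).filter_mono nhdsWithin_le_nhds] with u hu hoff hc
      exact hu ((ax_off R hS hoff _).1 hc)
    · filter_upwards [hm.right, (ev_off hS hV).filter_mono nhdsWithin_le_nhds] with u hu hoff hc
      exact hu ((ax_off R hS hoff _).1 hc)
  exact h.imp key key

/-- the two sides of a special angle in the new word -/
theorem aug_sides (R : Pre X) (hS : Sp X S o j g ε δ) {Q : ℝ} (hQ : Q ∈ S) :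
    (∀ t ∈ Ioo 0 (δ Q), Q - o Q * t ∉ AX X S o j g ε δ (g Q)) ∧
      ∀ t ∈ Ioo 0 (δ Q), Q + o Q * t ∉ AX X S o j g ε δ (j Q) := by
  have hd1 := hS.d1 Q hQ
  have habs : ∀ t : ℝ, |o Q * t| = |t| := by
    intro t
    rw [abs_mul]
    rcases hS.ho Q hQ with h | h <;> rw [h] <;> simp
  have hoo : o Q * o Q = 1 := by
    rcases hS.ho Q hQ with h | h <;> rw [h] <;> ring
  constructor
  · intro t ht hc
    have hoff : Off S o δ (Q - o Q * t) := by
      intro Q' hQ' n' h1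
      have h3 : |Q - o Q * t - Q' - 6 * n'| < ε := by
        rw [← abs_tc hS hQ', abs_of_nonneg h1.1]
        linarith [h1.2, hS.d1 Q' hQ']
      have h4 : |Q - o Q * t - Q - 6 * ((0 : ℤ) : ℝ)| < ε := by
        have e : Q - o Q * t - Q - 6 * ((0 : ℤ) : ℝ) = -(o Q * t) := by push_cast; ring
        rw [e, abs_neg, habs, abs_of_pos ht.1]; linarith [ht.2]
      obtain ⟨rfl, rfl⟩ := uniq hS hQ hQ' h4 h3
      have e : tc o Q' 0 (Q' - o Q' * t) = -t := by
        unfold tc; push_cast; linear_combination -t * hoo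
      rw [e] at h1
      linarith [h1.1, ht.1]
    rw [ax_off R hS hoff] at hc
    have := hS.arc Q hQ t ⟨ht.1, by linarith [ht.2]⟩ _ hc
    exact lt_ne_ge (hS.hg Q hQ) (hS.hj Q hQ) this
  · intro t ht hc
    have e : tc o Q 0 (Q + o Q * t) = t := by
      unfold tc; push_cast; linear_combination t * hoo
    rcases ax_run R hS hQ (n := 0) (by rw [e]; exact ⟨ht.1.le, ht.2.le⟩) hc with h | h
    · exact lt_ne_ge h (hS.hj Q hQ) rfl
    · rw [e] at h; exact ht.1.ne' h.2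

/-- **The special angles are clean ends of the new word.** -/
theorem aug_new (R : Pre X) (hS : Sp X S o j g ε δ) {Q : ℝ} (hQ : Q ∈ S) :
    End (AX X S o j g ε δ) (g Q) (j Q) Q := by
  have hd0 := hS.d0 Q hQ
  have m : ∀ l, Q ∈ AX X S o j g ε δ l ↔ l = g Q ∨ l = j Q := by
    intro l
    have := ax_spec R hS hQ 0 (l := l)
    rw [Int.cast_zero, mul_zero, add_zero] at this; exact this
  obtain ⟨s1, s2⟩ := aug_sides R hS hQ
  rcases hS.ho Q hQ with h | h
  · right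
    rw [h] at s1 s2
    refine ⟨(m _).2 (Or.inr rfl), (m _).2 (Or.inl rfl), fun l hl => ((m l).1 hl).symm, ?_, ?_⟩
    · filter_upwards [Ioo_mem_nhdsLT (show Q - δ Q < Q by linarith)] with u hu hc
      refine s1 (Q - u) ⟨by linarith [hu.2], by linarith [hu.1]⟩ ?_
      have e : Q - 1 * (Q - u) = u := by ring
      rw [e]; exact hc
    · filter_upwards [Ioo_mem_nhdsGT (show Q < Q + δ Q by linarith)] with u hu hc
      refine s2 (u - Q) ⟨by linarith [hu.1], by linarith [hu.2]⟩ ?_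
      have e : Q + 1 * (u - Q) = u := by ring
      rw [e]; exact hc
  · left
    rw [h] at s1 s2
    refine ⟨(m _).2 (Or.inl rfl), (m _).2 (Or.inr rfl), fun l hl => (m l).1 hl, ?_, ?_⟩
    · filter_upwards [Ioo_mem_nhdsLT (show Q - δ Q < Q by linarith)] with u hu hc
      refine s2 (Q - u) ⟨by linarith [hu.2], by linarith [hu.1]⟩ ?_
      have e : Q + -1 * (Q - u) = u := by ring
      rw [e]; exact hc
    · filter_upwards [Ioo_mem_nhdsGT (show Q < Q + δ Q by linarith)] with u hu hc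
      refine s1 (u - Q) ⟨by linarith [hu.1], by linarith [hu.2]⟩ ?_
      have e : Q - -1 * (u - Q) = u := by ring
      rw [e]; exact hc

end Vale.Agent.P032.H350
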