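import Vale.Agent.P032.H350.AugW
import Vale.Agent.P032.H299.SymW

/-!
# P032: surgery on words with triple letters

`PreW X`: the axioms of a word except `two` and `three`.  `Su X K m ε`: the word `X` with the letter
`m` written over the `ε`-neighbourhood of the closed set `K` of angles.  If `m` is a letter at the
points of `K` and not a letter at their neighbours then for small `ε` all axioms of `PreW` survive
(`pre_su`).  `l1_clean`, `PreW.L1x`: each of the letters `0, 1` meets a pair letter at a point without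
the other one.
-/

open Set Filter Topology

namespace Vale.Agent.P032.H350

open Vale.Agent.P032.Words

/-- the axioms of a word except `two` and `three` -/
structure PreW (X : Fin 4 → Set ℝ) : Prop where
  closed : ∀ l, IsClosed (X l)
  cover : ∀ u, ∃ l, u ∈ X l
  per : ∀ l u, u + 6 ∈ X l ↔ u ∈ X l
  anti : ∀ u, u ∈ X 2 → u + 3 ∉ X 3
  ac : ∀ u, u ∈ X 2 → u ∉ X 3
  own : ∀ u l, u ∈ X l → u + 1 ∈ X l → ∃ m, m ≠ l ∧ u ∈ X m
  own' : ∀ u l, u ∈ X l → u + 1 ∈ X l → ∃ m, m ≠ l ∧ u + 1 ∈ X m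
  swap : ∀ u l m, u ∈ X l → u + 1 ∈ X l → u ∈ X m → u + 1 ∈ X m → l = m
  dbl : ∀ u l m, l ≠ m → u ∈ X l → u + 1 ∈ X l → u + 1 ∈ X m → u + 2 ∈ X m →
    l.val < 2 ∧ m.val < 2

theorem Pre.preW {X : Fin 4 → Set ℝ} (R : Pre X) : PreW X :=
  ⟨R.closed, R.cover, R.per, R.anti, R.ac, R.own, R.own', R.swap, R.dbl⟩

/-- closed neighbourhood -/
def Nb (K : Set ℝ) (ε : ℝ) : Set ℝ := {u | ∃ q ∈ K, |u - q| ≤ ε}

/-- open neighbourhood -/
def No (K : Set ℝ) (ε : ℝ) : Set ℝ := {u | ∃ q ∈ K, |u - q| < ε}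

theorem no_nb {K : Set ℝ} {ε : ℝ} : No K ε ⊆ Nb K ε := fun _ ⟨q, hq, h⟩ => ⟨q, hq, h.le⟩

theorem sub_no {K : Set ℝ} {ε : ℝ} (hε : 0 < ε) : K ⊆ No K ε := fun u hu =>
  ⟨u, hu, by rw [sub_self, abs_zero]; exact hε⟩

theorem nb_mono {K : Set ℝ} {ε ε' : ℝ} (h : ε ≤ ε') : Nb K ε ⊆ Nb K ε' := fun _ ⟨q, hq, h1⟩ =>
  ⟨q, hq, h1.trans h⟩

theorem isClosed_nb {K : Set ℝ} (hK : IsClosed K) {ε : ℝ} (hε : 0 ≤ ε) : IsClosed (Nb K ε) := by
  have h1 : Nb K ε = Metric.cthickening ε K := by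
    rw [hK.cthickening_eq_biUnion_closedBall hε]
    ext u
    simp only [Nb, mem_ofPred_eq, mem_iUnion, Metric.mem_closedBall, Real.dist_eq, exists_prop]
  rw [h1]
  exact Metric.isClosed_cthickening

theorem isOpen_no {K : Set ℝ} {ε : ℝ} : IsOpen (No K ε) := by
  have h1 : No K ε = ⋃ q ∈ K, Metric.ball q ε := by
    ext u
    simp only [No, mem_ofPred_eq, mem_iUnion, Metric.mem_ball, Real.dist_eq, exists_prop]
  rw [h1]
  exact isOpen_biUnion fun q _ => Metric.isOpen_ball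

/-- period six -/
def Per (K : Set ℝ) : Prop := ∀ u, u + 6 ∈ K ↔ u ∈ K

theorem Per.z {K : Set ℝ} (h : Per K) (n : ℤ) (u : ℝ) : u + 6 * (n : ℝ) ∈ K ↔ u ∈ K := by
  induction n with
  | zero => simp
  | succ i ih =>
    have : u + 6 * (((i : ℤ) + 1 : ℤ) : ℝ) = (u + 6 * ((i : ℤ) : ℝ)) + 6 := by push_cast; ring
    rw [this, h, ih]
  | pred i ih =>
    have : u + 6 * ((-(i : ℤ) - 1 : ℤ) : ℝ) + 6 = u + 6 * ((-(i : ℤ) : ℤ) : ℝ) := by
      push_cast; ring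
    rw [← h, this, ih]

theorem Per.nb {K : Set ℝ} (h : Per K) (ε : ℝ) : Per (Nb K ε) := by
  intro u
  constructor
  · rintro ⟨q, hq, h1⟩
    refine ⟨q - 6, (h _).1 (by rw [sub_add_cancel]; exact hq), ?_⟩
    rwa [show u - (q - 6) = u + 6 - q by ring]
  · rintro ⟨q, hq, h1⟩
    refine ⟨q + 6, (h _).2 hq, ?_⟩
    rwa [show u + 6 - (q + 6) = u - q by ring]

theorem Per.no {K : Set ℝ} (h : Per K) (ε : ℝ) : Per (No K ε) := by
  intro u
  constructor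
  · rintro ⟨q, hq, h1⟩
    refine ⟨q - 6, (h _).1 (by rw [sub_add_cancel]; exact hq), ?_⟩
    rwa [show u - (q - 6) = u + 6 - q by ring]
  · rintro ⟨q, hq, h1⟩
    refine ⟨q + 6, (h _).2 hq, ?_⟩
    rwa [show u + 6 - (q + 6) = u - q by ring]

theorem exists_win (u : ℝ) : ∃ n : ℤ, u - 6 * (n : ℝ) ∈ Icc (0 : ℝ) 6 := by
  refine ⟨⌊u / 6⌋, ?_, ?_⟩
  · have := Int.floor_le (u / 6)
    linarith
  · have := Int.lt_floor_add_one (u / 6)
    linarith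

/-- disjoint closed periodic sets have disjoint neighbourhoods -/
theorem sep {A B : Set ℝ} (hA : IsClosed A) (hB : IsClosed B) (pA : Per A) (pB : Per B)
    (hd : ∀ u ∈ A, u ∉ B) : ∃ ε, 0 < ε ∧ ∀ u ∈ Nb A ε, u ∉ B := by
  have hc : IsCompact (A ∩ Icc (0 : ℝ) 6) := isCompact_Icc.inter_left hA
  obtain ⟨ε, hε, h1⟩ := hc.exists_cthickening_subset_open hB.isOpen_compl fun u hu => hd u hu.1
  refine ⟨ε, hε, ?_⟩
  rintro u ⟨q, hq, h2⟩ huB
  obtain ⟨n, hn⟩ := exists_win q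
  have h3 : q - 6 * n ∈ A ∩ Icc (0 : ℝ) 6 := by
    refine ⟨?_, hn⟩
    rw [← pA.z n, sub_add_cancel]; exact hq
  have h4 : u - 6 * n ∈ Metric.cthickening ε (A ∩ Icc (0 : ℝ) 6) := by
    refine Metric.mem_cthickening_of_dist_le _ (q - 6 * n) _ _ h3 ?_
    rw [Real.dist_eq, show u - 6 * (n : ℝ) - (q - 6 * n) = u - q by ring]
    exact h2
  have h5 := h1 h4
  apply h5
  rw [← pB.z n, sub_add_cancel]; exact huB

/-- pattern inclusion -/
def Pat (X : Fin 4 → Set ℝ) (K : Set ℝ) (ε : ℝ) (u w : ℝ) : Prop :=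
  ∀ k : ℤ, -3 ≤ k → k ≤ 3 →
    (∀ l, u + k ∈ X l → w + k ∈ X l) ∧ (u + k ∈ Nb K ε → w + k ∈ K)

theorem Pat.mono {X : Fin 4 → Set ℝ} {K : Set ℝ} {ε ε' : ℝ} {u w : ℝ} (h : Pat X K ε u w)
    (h1 : ε' ≤ ε) : Pat X K ε' u w := fun k hk hk' =>
  ⟨(h k hk hk').1, fun h2 => (h k hk hk').2 (nb_mono h1 h2)⟩

theorem Pat.shift {X : Fin 4 → Set ℝ} (hX : ∀ l, Per (X l)) {K : Set ℝ} (hK : Per K) {ε : ℝ}
    {u w : ℝ} (h : Pat X K ε u w) (n : ℤ) : Pat X K ε (u + 6 * n) (w + 6 * n) := by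
  intro k hk hk'
  obtain ⟨h1, h2⟩ := h k hk hk'
  have e1 : u + 6 * (n : ℝ) + k = u + k + 6 * n := by ring
  have e2 : w + 6 * (n : ℝ) + k = w + k + 6 * n := by ring
  rw [e1, e2]
  exact ⟨fun l h3 => ((hX l).z n _).2 (h1 l (((hX l).z n _).1 h3)),
    fun h3 => (hK.z n _).2 (h2 (((hK.nb ε).z n _).1 h3))⟩

theorem exists_pat {X : Fin 4 → Set ℝ} (hX : ∀ l, IsClosed (X l)) (pX : ∀ l, Per (X l))
    {K : Set ℝ} (hK : IsClosed K) (pK : Per K) :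
    ∃ ε₀, 0 < ε₀ ∧ ∀ ε ≤ ε₀, ∀ u, ∃ w, Pat X K ε u w := by
  have loc : ∀ x : ℝ, ∃ ε₀, 0 < ε₀ ∧ ∀ᶠ u in 𝓝 x, Pat X K ε₀ u x := by
    intro x
    -- one index
    have one : ∀ k : ℤ, ∃ ε₀ : ℝ, 0 < ε₀ ∧ ∀ᶠ u : ℝ in 𝓝 x,
        (∀ l, u + k ∈ X l → x + k ∈ X l) ∧ (u + k ∈ Nb K ε₀ → x + k ∈ K) := by
      intro k
      have hc : Tendsto (fun u : ℝ => u + k) (𝓝 x) (𝓝 (x + k)) :=
        (continuous_id.add continuous_const).tendsto x
      have h1 : ∀ᶠ u : ℝ in 𝓝 x, ∀ l, u + k ∈ X l → x + k ∈ X l := by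
        rw [eventually_all]
        intro l
        by_cases h : x + k ∈ X l
        · exact Eventually.of_forall fun _ _ => h
        · filter_upwards [hc.eventually ((hX l).isOpen_compl.mem_nhds h)] with u hu hu'
          exact absurd hu' hu
      by_cases h : x + k ∈ K
      · exact ⟨1, one_pos, h1.mono fun u hu => ⟨hu, fun _ => h⟩⟩
      · obtain ⟨r, hr, hr'⟩ := Metric.isOpen_iff.1 hK.isOpen_compl _ h
        refine ⟨r / 4, by linarith, ?_⟩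
        filter_upwards [h1, Metric.ball_mem_nhds x (show 0 < r / 4 by linarith)] with u hu hu'
        refine ⟨hu, ?_⟩
        rintro ⟨q, hq, h2⟩
        exfalso
        refine hr' (a := q) ?_ hq
        rw [Metric.mem_ball, Real.dist_eq] at hu' ⊢
        have e : q - (x + k) = -(u + k - q) + (u - x) := by ring
        rw [e]
        have := abs_add_le (-(u + k - q)) (u - x)
        rw [abs_neg] at this
        linarith
    choose r hr hr' using one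
    refine ⟨min (min (min (r (-3)) (r (-2))) (min (r (-1)) (r 0))) (min (min (r 1) (r 2)) (r 3)),
      ?_, ?_⟩
    · simp only [lt_min_iff]
      exact ⟨⟨⟨hr _, hr _⟩, ⟨hr _, hr _⟩⟩, ⟨⟨hr _, hr _⟩, hr _⟩⟩
    · filter_upwards [hr' (-3), hr' (-2), hr' (-1), hr' 0, hr' 1, hr' 2, hr' 3]
        with u h1 h2 h3 h4 h5 h6 h7
      intro k hk hk'
      set ε₀ := min (min (min (r (-3)) (r (-2))) (min (r (-1)) (r 0)))
        (min (min (r 1) (r 2)) (r 3)) with hε₀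
      have hle : ∀ k : ℤ, -3 ≤ k → k ≤ 3 → ε₀ ≤ r k := by
        intro k hk hk'
        have : k = -3 ∨ k = -2 ∨ k = -1 ∨ k = 0 ∨ k = 1 ∨ k = 2 ∨ k = 3 := by omega
        rcases this with rfl | rfl | rfl | rfl | rfl | rfl | rfl <;> simp [hε₀]
      have key : ∀ k : ℤ, -3 ≤ k → k ≤ 3 →
          ((∀ l, u + k ∈ X l → x + k ∈ X l) ∧ (u + k ∈ Nb K (r k) → x + k ∈ K)) →
          ((∀ l, u + k ∈ X l → x + k ∈ X l) ∧ (u + k ∈ Nb K ε₀ → x + k ∈ K)) :=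
        fun k hk hk' h => ⟨h.1, fun h8 => h.2 (nb_mono (hle k hk hk') h8)⟩
      have : k = -3 ∨ k = -2 ∨ k = -1 ∨ k = 0 ∨ k = 1 ∨ k = 2 ∨ k = 3 := by omega
      rcases this with rfl | rfl | rfl | rfl | rfl | rfl | rfl
      exacts [key _ (by norm_num) (by norm_num) h1, key _ (by norm_num) (by norm_num) h2,
        key _ (by norm_num) (by norm_num) h3, key _ (by norm_num) (by norm_num) h4,
        key _ (by norm_num) (by norm_num) h5, key _ (by norm_num) (by norm_num) h6,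
        key _ (by norm_num) (by norm_num) h7]
  have cpt : ∃ ε₀, 0 < ε₀ ∧ ∀ u ∈ Icc (0 : ℝ) 6, ∃ w, Pat X K ε₀ u w := by
    refine IsCompact.induction_on (p := fun s => ∃ ε₀, 0 < ε₀ ∧ ∀ u ∈ s, ∃ w, Pat X K ε₀ u w)
      (isCompact_Icc (a := (0 : ℝ)) (b := 6)) ?_ ?_ ?_ ?_
    · exact ⟨1, one_pos, fun u hu => absurd hu (notMem_empty u)⟩
    · rintro s t hst ⟨ε₀, h0, h1⟩
      exact ⟨ε₀, h0, fun u hu => h1 u (hst hu)⟩
    · rintro s t ⟨ε₀, h0, h1⟩ ⟨ε₁, h0', h1'⟩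
      refine ⟨min ε₀ ε₁, lt_min h0 h0', ?_⟩
      rintro u (hu | hu)
      · obtain ⟨w, hw⟩ := h1 u hu
        exact ⟨w, hw.mono (min_le_left _ _)⟩
      · obtain ⟨w, hw⟩ := h1' u hu
        exact ⟨w, hw.mono (min_le_right _ _)⟩
    · intro x _
      obtain ⟨ε₀, h0, h1⟩ := loc x
      exact ⟨{u | Pat X K ε₀ u x}, mem_nhdsWithin_of_mem_nhds h1, ε₀, h0, fun u hu => ⟨x, hu⟩⟩
  obtain ⟨ε₀, h0, h1⟩ := cpt
  refine ⟨ε₀, h0, fun ε hε u => ?_⟩
  obtain ⟨n, hn⟩ := exists_win u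
  obtain ⟨w, hw⟩ := h1 _ hn
  refine ⟨w + 6 * n, ?_⟩
  have := (hw.mono hε).shift pX pK n
  rwa [sub_add_cancel] at this

/-- the letter `m` written over the neighbourhood of `K` -/
def Su (X : Fin 4 → Set ℝ) (K : Set ℝ) (m : Fin 4) (ε : ℝ) (l : Fin 4) : Set ℝ :=
  {u | (u ∈ X l ∧ u ∉ No K ε) ∨ (l = m ∧ u ∈ Nb K ε)}

section su

variable {X : Fin 4 → Set ℝ} {K : Set ℝ} {m : Fin 4} {ε : ℝ}

theorem su_off {u : ℝ} (h : u ∉ Nb K ε) (l : Fin 4) : u ∈ Su X K m ε l ↔ u ∈ X l :=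
  ⟨fun h1 => h1.elim (fun h2 => h2.1) fun h2 => absurd h2.2 h,
    fun h1 => Or.inl ⟨h1, fun h2 => h (no_nb h2)⟩⟩

theorem su_in {u : ℝ} (h : u ∈ No K ε) {l : Fin 4} (h1 : u ∈ Su X K m ε l) : l = m :=
  h1.elim (fun h2 => absurd h h2.2) fun h2 => h2.1

theorem su_ne {u : ℝ} {l : Fin 4} (hl : l ≠ m) (h1 : u ∈ Su X K m ε l) :
    u ∈ X l ∧ u ∉ No K ε :=
  h1.elim id fun h2 => absurd h2.1 hl

theorem su_m {u : ℝ} (h1 : u ∈ Nb K ε) : u ∈ Su X K m ε m := Or.inr ⟨rfl, h1⟩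

theorem su_pat {u w : ℝ} (hK : K ⊆ X m) (h : Pat X K ε u w) {k : ℤ} (hk : -3 ≤ k) (hk' : k ≤ 3)
    {l : Fin 4} (h1 : u + k ∈ Su X K m ε l) : w + k ∈ X l := by
  rcases h1 with h2 | ⟨rfl, h2⟩
  · exact (h k hk hk').1 l h2.1
  · exact hK ((h k hk hk').2 h2)

theorem su_pat0 {u w : ℝ} (hK : K ⊆ X m) (h : Pat X K ε u w) {l : Fin 4}
    (h1 : u ∈ Su X K m ε l) : w ∈ X l := by
  have := su_pat hK h (k := 0) (by norm_num) (by norm_num) (l := l) (by simpa using h1)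
  simpa using this

theorem su_pat1 {u w : ℝ} (hK : K ⊆ X m) (h : Pat X K ε u w) {l : Fin 4}
    (h1 : u + 1 ∈ Su X K m ε l) : w + 1 ∈ X l := by
  have := su_pat hK h (k := 1) (by norm_num) (by norm_num) (l := l) (by simpa using h1)
  simpa using this

theorem su_pat2 {u w : ℝ} (hK : K ⊆ X m) (h : Pat X K ε u w) {l : Fin 4}
    (h1 : u + 2 ∈ Su X K m ε l) : w + 2 ∈ X l := by
  have := su_pat hK h (k := 2) (by norm_num) (by norm_num) (l := l) (by simpa using h1)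
  simpa using this

theorem su_pat3 {u w : ℝ} (hK : K ⊆ X m) (h : Pat X K ε u w) {l : Fin 4}
    (h1 : u + 3 ∈ Su X K m ε l) : w + 3 ∈ X l := by
  have := su_pat hK h (k := 3) (by norm_num) (by norm_num) (l := l) (by simpa using h1)
  simpa using this

/-- **Surgery** -/
theorem pre_su (R : PreW X) (hK : IsClosed K) (pK : Per K) (hKm : K ⊆ X m)
    (h1 : ∀ w ∈ K, w + 1 ∉ X m ∧ w - 1 ∉ X m) (hε : 0 < ε) (hp : ∀ u, ∃ w, Pat X K ε u w) :
    PreW (Su X K m ε) where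
  closed := fun l => by
    have e : Su X K m ε l = (X l ∩ (No K ε)ᶜ) ∪ {u | l = m ∧ u ∈ Nb K ε} := by
      ext u; rfl
    rw [e]
    refine ((R.closed l).inter isOpen_no.isClosed_compl).union ?_
    by_cases h : l = m
    · have e2 : {u | l = m ∧ u ∈ Nb K ε} = Nb K ε := by ext u; simp [h]
      rw [e2]; exact isClosed_nb hK hε.le
    · have e2 : {u | l = m ∧ u ∈ Nb K ε} = ∅ := by ext u; simp [h]
      rw [e2]; exact isClosed_empty
  cover := fun u => by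
    by_cases h : u ∈ No K ε
    · exact ⟨m, su_m (no_nb h)⟩
    · obtain ⟨l, hl⟩ := R.cover u
      exact ⟨l, Or.inl ⟨hl, h⟩⟩
  per := fun l u => by
    unfold Su
    simp only [mem_ofPred_eq]
    rw [R.per, pK.no ε u, pK.nb ε u]
  anti := fun u h2 h3 => by
    obtain ⟨w, hw⟩ := hp u
    exact R.anti w (su_pat0 hKm hw h2) (su_pat3 hKm hw h3)
  ac := fun u h2 h3 => by
    obtain ⟨w, hw⟩ := hp u
    exact R.ac w (su_pat0 hKm hw h2) (su_pat0 hKm hw h3)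
  own := fun u l h2 h3 => by
    obtain ⟨w, hw⟩ := hp u
    by_cases hu : u ∈ Nb K ε
    · by_cases hl : l = m
      · subst hl
        exfalso
        have hwK : w ∈ K := by
          have := (hw 0 (by norm_num) (by norm_num)).2 (by simpa using hu)
          simpa using this
        exact (h1 w hwK).1 (su_pat1 hKm hw h3)
      · exact ⟨m, fun h => hl h.symm, su_m hu⟩
    · rw [su_off hu] at h2
      rcases h3 with h4 | ⟨rfl, h4⟩
      · obtain ⟨n, hn, hn'⟩ := R.own u l h2 h4.1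
        exact ⟨n, hn, (su_off hu n).2 hn'⟩
      · exfalso
        have hwK : w + 1 ∈ K := by
          have := (hw 1 (by norm_num) (by norm_num)).2 (by simpa using h4)
          simpa using this
        have h5 : w ∈ X l := by
          have := (hw 0 (by norm_num) (by norm_num)).1 l (by simpa using h2)
          simpa using this
        refine (h1 _ hwK).2 ?_
        rwa [add_sub_cancel_right]
  own' := fun u l h2 h3 => by
    obtain ⟨w, hw⟩ := hp u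
    by_cases hu : u + 1 ∈ Nb K ε
    · by_cases hl : l = m
      · subst hl
        exfalso
        have hwK : w + 1 ∈ K := by
          have := (hw 1 (by norm_num) (by norm_num)).2 (by simpa using hu)
          simpa using this
        refine (h1 _ hwK).2 ?_
        rw [add_sub_cancel_right]
        exact su_pat0 hKm hw h2
      · exact ⟨m, fun h => hl h.symm, su_m hu⟩
    · rw [su_off hu] at h3
      rcases h2 with h4 | ⟨rfl, h4⟩
      · obtain ⟨n, hn, hn'⟩ := R.own' u l h4.1 h3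
        exact ⟨n, hn, (su_off hu n).2 hn'⟩
      · exfalso
        have hwK : w ∈ K := by
          have := (hw 0 (by norm_num) (by norm_num)).2 (by simpa using h4)
          simpa using this
        refine (h1 _ hwK).1 ?_
        have := (hw 1 (by norm_num) (by norm_num)).1 l (by simpa using h3)
        simpa using this
  swap := fun u l n h2 h3 h4 h5 => by
    obtain ⟨w, hw⟩ := hp u
    exact R.swap w l n (su_pat0 hKm hw h2) (su_pat1 hKm hw h3) (su_pat0 hKm hw h4)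
      (su_pat1 hKm hw h5)
  dbl := fun u l n hln h2 h3 h4 h5 => by
    obtain ⟨w, hw⟩ := hp u
    exact R.dbl w l n hln (su_pat0 hKm hw h2) (su_pat1 hKm hw h3) (su_pat1 hKm hw h4)
      (su_pat2 hKm hw h5)

/-- surgery, existence of a small `ε` below any bound -/
theorem exists_su (R : PreW X) (hK : IsClosed K) (pK : Per K) (hKm : K ⊆ X m)
    (h1 : ∀ w ∈ K, w + 1 ∉ X m ∧ w - 1 ∉ X m) {η : ℝ} (hη : 0 < η) :
    ∃ ε, 0 < ε ∧ ε ≤ η ∧ PreW (Su X K m ε) := by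
  obtain ⟨ε₀, h0, hp⟩ := exists_pat R.closed R.per hK pK
  exact ⟨min ε₀ η, lt_min h0 hη, min_le_right _ _,
    pre_su R hK pK hKm h1 (lt_min h0 hη) (hp _ (min_le_left _ _))⟩

end su

/-! ### exchange of the letters `0`, `1` -/

/-- `0 ↔ 1` -/
def s01 : Fin 4 → Fin 4 := ![1, 0, 2, 3]

theorem s01_inj : ∀ l m, s01 l = s01 m → l = m := by decide

theorem s01_s01 : ∀ l, s01 (s01 l) = l := by decide

theorem s01_lt : ∀ l, (s01 l).val < 2 → l.val < 2 := by decide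

theorem rawW_s01 {X : Fin 4 → Set ℝ} (w : RawW X) : RawW (fun l => X (s01 l)) where
  closed := fun l => w.closed _
  cover := fun u => by
    obtain ⟨l, hl⟩ := w.cover u
    exact ⟨s01 l, by rw [s01_s01]; exact hl⟩
  per := fun l u => w.per _ u
  anti := w.anti
  ac := w.ac
  two := fun u l m n h1 h2 h3 => by
    rcases w.two u _ _ _ h1 h2 h3 with h | h | h
    · exact Or.inl (s01_inj _ _ h)
    · exact Or.inr (Or.inl (s01_inj _ _ h))
    · exact Or.inr (Or.inr (s01_inj _ _ h))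
  own := fun u l h1 h2 => by
    obtain ⟨m, hm, hm'⟩ := w.own u _ h1 h2
    exact ⟨s01 m, fun h => hm (by rw [← h, s01_s01]), by rw [s01_s01]; exact hm'⟩
  own' := fun u l h1 h2 => by
    obtain ⟨m, hm, hm'⟩ := w.own' u _ h1 h2
    exact ⟨s01 m, fun h => hm (by rw [← h, s01_s01]), by rw [s01_s01]; exact hm'⟩
  swap := fun u l m h1 h2 h3 h4 => s01_inj _ _ (w.swap u _ _ h1 h2 h3 h4)
  dbl := fun u l m hlm h1 h2 h3 h4 => by
    obtain ⟨k1, k2⟩ := w.dbl u _ _ (fun h => hlm (s01_inj _ _ h)) h1 h2 h3 h4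
    exact ⟨s01_lt _ k1, s01_lt _ k2⟩

/-- **L1** for the letter `f` -/
theorem rawW_L1f {X : Fin 4 → Set ℝ} (w : RawW X) : ∃ u, u ∈ X 1 ∧ (u ∈ X 2 ∨ u ∈ X 3) :=
  (rawW_s01 w).L1e

/-! ### triple points -/

/-- the triple points -/
structure Trp (X : Fin 4 → Set ℝ) : Prop where
  two : ∀ u l m n, u ∈ X l → u ∈ X m → u ∈ X n →
    l = m ∨ m = n ∨ n = l ∨ (u ∈ X 0 ∧ u ∈ X 1)
  nb : ∀ u j, (j = 2 ∨ j = 3) → u ∈ X 0 → u ∈ X 1 → u ∈ X j →
    (u + 1 ∈ X (oth j) ∧ u - 1 ∈ X (oth j)) ∧ ¬ (u + 1 ∈ X 0 ∧ u + 1 ∈ X 1) ∧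
      ¬ (u - 1 ∈ X 0 ∧ u - 1 ∈ X 1)

section trp

variable {X : Fin 4 → Set ℝ}

theorem PreW.acj (R : PreW X) {u : ℝ} {j : Fin 4} (hj : j = 2 ∨ j = 3) (h1 : u ∈ X j) :
    u ∉ X (oth j) := by
  rcases hj with rfl | rfl
  · exact R.ac u h1
  · exact fun h => R.ac u h h1

theorem PreW.acj' (R : PreW X) {u : ℝ} {j : Fin 4} (hj : j = 2 ∨ j = 3) (h1 : u ∈ X (oth j)) :
    u ∉ X j := fun h => R.acj hj h h1

theorem cases4 (n j : Fin 4) (hj : j = 2 ∨ j = 3) : n = 0 ∨ n = 1 ∨ n = j ∨ n = oth j := by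
  rcases hj with rfl | rfl <;> revert n <;> decide

theorem distinct3 (P : Fin 4 → Prop) : ∀ l m n : Fin 4, l ≠ m → m ≠ n → n ≠ l → P l → P m →
    P n → (P 0 ∧ P 1 ∧ P 2) ∨ (P 0 ∧ P 1 ∧ P 3) ∨ (P 0 ∧ P 2 ∧ P 3) ∨ (P 1 ∧ P 2 ∧ P 3) := by
  intro l m n
  fin_cases l <;> fin_cases m <;> fin_cases n <;> simp +contextual

/-- the second neighbours of a triple point do not carry the other pair letter -/
theorem Trp.nb2 (R : PreW X) (hT : Trp X) {u : ℝ} {j : Fin 4} (hj : j = 2 ∨ j = 3)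
    (h0 : u ∈ X 0) (h1 : u ∈ X 1) (h2 : u ∈ X j) : u + 2 ∉ X (oth j) ∧ u - 2 ∉ X (oth j) := by
  obtain ⟨⟨n1, n2⟩, -, -⟩ := hT.nb u j hj h0 h1 h2
  have ho : ¬ (oth j).val < 2 := by rcases hj with rfl | rfl <;> decide
  constructor
  · intro h
    obtain ⟨n, hn, hn'⟩ := R.own (u + 1) (oth j) n1 (by rwa [show u + 1 + 1 = u + 2 by ring])
    have hun : u ∈ X n := by
      rcases cases4 n j hj with rfl | rfl | rfl | rfl
      · exact h0
      · exact h1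
      · exact absurd n1 (R.acj hj hn')
      · exact absurd rfl hn
    exact ho (R.dbl u n (oth j) hn hun hn' n1 h).2
  · intro h
    have e1 : u - 2 + 1 = u - 1 := by ring
    have e2 : u - 2 + 2 = u := by ring
    obtain ⟨n, hn, hn'⟩ := R.own' (u - 2) (oth j) h (by rwa [e1])
    rw [e1] at hn'
    have hun : u ∈ X n := by
      rcases cases4 n j hj with rfl | rfl | rfl | rfl
      · exact h0
      · exact h1
      · exact absurd n2 (R.acj hj hn')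
      · exact absurd rfl hn
    exact ho (R.dbl (u - 2) (oth j) n hn.symm h (by rwa [e1]) (by rwa [e1]) (by rwa [e2])).1

/-- the neighbours of a set -/
def Nei (K : Set ℝ) : Set ℝ := {w | w - 1 ∈ K ∨ w + 1 ∈ K}

theorem isClosed_nei {K : Set ℝ} (hK : IsClosed K) : IsClosed (Nei K) := by
  have h1 : IsClosed ((fun w : ℝ => w - 1) ⁻¹' K) := hK.preimage (by fun_prop)
  have h2 : IsClosed ((fun w : ℝ => w + 1) ⁻¹' K) := hK.preimage (by fun_prop)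
  exact h1.union h2

theorem per_nei {K : Set ℝ} (hK : Per K) : Per (Nei K) := by
  intro u
  have e1 : u + 6 - 1 = u - 1 + 6 := by ring
  have e2 : u + 6 + 1 = u + 1 + 6 := by ring
  unfold Nei
  simp only [mem_ofPred_eq]
  rw [e1, e2, hK, hK]

theorem Per.inter {A B : Set ℝ} (hA : Per A) (hB : Per B) : Per (A ∩ B) := fun u => by
  rw [mem_inter_iff, mem_inter_iff, hA, hB]

theorem Per.union {A B : Set ℝ} (hA : Per A) (hB : Per B) : Per (A ∪ B) := fun u => by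
  rw [mem_union, mem_union, hA, hB]

/-- **Each of the letters `0, 1` meets a pair letter at a point without the other one.** -/
theorem l1_clean (R : PreW X) (hT : Trp X) {g h : Fin 4} (hgh : (g = 0 ∧ h = 1) ∨ (g = 1 ∧ h = 0)) :
    ∃ u, u ∈ X h ∧ (u ∈ X 2 ∨ u ∈ X 3) ∧ u ∉ X g := by
  by_contra hcon
  push Not at hcon
  have pX : ∀ l, Per (X l) := fun l u => R.per l u
  have hg2 : g ≠ 2 ∧ g ≠ 3 := by rcases hgh with ⟨rfl, rfl⟩ | ⟨rfl, rfl⟩ <;> decide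
  have hh2 : h ≠ 2 ∧ h ≠ 3 := by rcases hgh with ⟨rfl, rfl⟩ | ⟨rfl, rfl⟩ <;> decide
  have hne : h ≠ g := by rcases hgh with ⟨rfl, rfl⟩ | ⟨rfl, rfl⟩ <;> decide
  have both : ∀ {u}, u ∈ X h → u ∈ X g → u ∈ X 0 ∧ u ∈ X 1 := by
    intro u h1 h2
    rcases hgh with ⟨rfl, rfl⟩ | ⟨rfl, rfl⟩
    · exact ⟨h2, h1⟩
    · exact ⟨h1, h2⟩
  have both' : ∀ {u}, u ∈ X 0 → u ∈ X 1 → u ∈ X h ∧ u ∈ X g := by
    intro u h1 h2
    rcases hgh with ⟨rfl, rfl⟩ | ⟨rfl, rfl⟩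
    · exact ⟨h2, h1⟩
    · exact ⟨h1, h2⟩
  -- the special points
  set A := X h ∩ X 2 with hA
  set B := X h ∩ X 3 with hB
  have cA : IsClosed A := (R.closed h).inter (R.closed 2)
  have cB : IsClosed B := (R.closed h).inter (R.closed 3)
  have pA : Per A := (pX h).inter (pX 2)
  have pB : Per B := (pX h).inter (pX 3)
  have sA : ∀ {u}, u ∈ A → (u ∈ X 0 ∧ u ∈ X 1) := fun {u} hu =>
    both hu.1 (hcon u hu.1 (Or.inl hu.2))
  have sB : ∀ {u}, u ∈ B → (u ∈ X 0 ∧ u ∈ X 1) := fun {u} hu =>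
    both hu.1 (hcon u hu.1 (Or.inr hu.2))
  -- neighbours
  have nA : ∀ {w}, w ∈ Nei A → w ∈ X 3 ∧ w ∉ X h ∧ w + 1 ∉ X 3 ∧ w - 1 ∉ X 3 := by
    rintro w (hw | hw)
    · obtain ⟨h0, h1⟩ := sA hw
      obtain ⟨⟨n1, -⟩, n2, -⟩ := hT.nb _ 2 (Or.inl rfl) h0 h1 hw.2
      have n3 := (Trp.nb2 R hT (Or.inl rfl) h0 h1 hw.2).1
      rw [sub_add_cancel] at n1 n2
      refine ⟨n1, fun h5 => ?_, ?_, R.ac _ hw.2⟩
      · exact n2 (sB ⟨h5, n1⟩)
      · rwa [show w - 1 + 2 = w + 1 by ring] at n3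
    · obtain ⟨h0, h1⟩ := sA hw
      obtain ⟨⟨-, n1⟩, -, n2⟩ := hT.nb _ 2 (Or.inl rfl) h0 h1 hw.2
      have n3 := (Trp.nb2 R hT (Or.inl rfl) h0 h1 hw.2).2
      rw [add_sub_cancel_right] at n1 n2
      refine ⟨n1, fun h5 => ?_, R.ac _ hw.2, ?_⟩
      · exact n2 (sB ⟨h5, n1⟩)
      · rwa [show w + 1 - 2 = w - 1 by ring] at n3
  have nB : ∀ {w}, w ∈ Nei B → w ∈ X 2 ∧ w ∉ X h ∧ w + 1 ∉ X 2 ∧ w - 1 ∉ X 2 := by
    rintro w (hw | hw)
    · obtain ⟨h0, h1⟩ := sB hw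
      obtain ⟨⟨n1, -⟩, n2, -⟩ := hT.nb _ 3 (Or.inr rfl) h0 h1 hw.2
      have n3 := (Trp.nb2 R hT (Or.inr rfl) h0 h1 hw.2).1
      rw [sub_add_cancel] at n1 n2
      have n1 : w ∈ X 2 := n1
      have n3 : w - 1 + 2 ∉ X 2 := n3
      refine ⟨n1, fun h5 => ?_, ?_, fun h5 => R.ac _ h5 hw.2⟩
      · exact n2 (sA ⟨h5, n1⟩)
      · rwa [show w - 1 + 2 = w + 1 by ring] at n3
    · obtain ⟨h0, h1⟩ := sB hw
      obtain ⟨⟨-, n1⟩, -, n2⟩ := hT.nb _ 3 (Or.inr rfl) h0 h1 hw.2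
      have n3 := (Trp.nb2 R hT (Or.inr rfl) h0 h1 hw.2).2
      rw [add_sub_cancel_right] at n1 n2
      have n1 : w ∈ X 2 := n1
      have n3 : w + 1 - 2 ∉ X 2 := n3
      refine ⟨n1, fun h5 => ?_, fun h5 => R.ac _ h5 hw.2, ?_⟩
      · exact n2 (sA ⟨h5, n1⟩)
      · rwa [show w + 1 - 2 = w - 1 by ring] at n3
  have cNA := isClosed_nei cA
  have cNB := isClosed_nei cB
  have pNA := per_nei pA
  have pNB := per_nei pB
  -- step 1
  obtain ⟨e1, he1, s1⟩ := sep cNA cNB pNA pNB fun u hu hu' => R.ac u (nB hu').1 (nA hu).1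
  obtain ⟨e2, he2, s2⟩ := sep cNA (R.closed h) pNA (pX h) fun u hu => (nA hu).2.1
  obtain ⟨ε₁, hε₁, hle1, R1⟩ := exists_su R cNA pNA (m := 3) (fun w hw => (nA hw).1)
    (fun w hw => (nA hw).2.2) (lt_min he1 he2)
  have s1' : ∀ u ∈ Nb (Nei A) ε₁, u ∉ Nei B := fun u hu =>
    s1 u (nb_mono (hle1.trans (min_le_left _ _)) hu)
  have s2' : ∀ u ∈ Nb (Nei A) ε₁, u ∉ X h := fun u hu =>
    s2 u (nb_mono (hle1.trans (min_le_right _ _)) hu)
  set X1 := Su X (Nei A) 3 ε₁ with hX1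
  -- step 2
  obtain ⟨e3, he3, s3⟩ := sep cNB (R.closed h) pNB (pX h) fun u hu => (nB hu).2.1
  obtain ⟨ε₂, hε₂, hle2, R2⟩ := exists_su R1 cNB pNB (m := 2)
    (fun w hw => (su_off (fun h5 => s1' w h5 hw) 2).2 (nB hw).1)
    (fun w hw => ⟨fun h5 => (nB hw).2.2.1 (su_ne (by decide) h5).1,
      fun h5 => (nB hw).2.2.2 (su_ne (by decide) h5).1⟩) he3
  have s3' : ∀ u ∈ Nb (Nei B) ε₂, u ∉ X h := fun u hu => s3 u (nb_mono hle2 hu)
  set X2 := Su X1 (Nei B) 2 ε₂ with hX2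
  have h_in : ∀ {u}, u ∈ X2 h → u ∈ X h := fun {u} h5 =>
    (su_ne hh2.2 (su_ne hh2.1 h5).1).1
  -- step 3
  have cK : IsClosed (A ∪ B) := cA.union cB
  have pK : Per (A ∪ B) := pA.union pB
  have hKh : ∀ {w}, w ∈ A ∪ B → w ∈ X h := by
    rintro w (hw | hw)
    · exact hw.1
    · exact hw.1
  have hKg : ∀ {w}, w ∈ A ∪ B → w ∈ X g := by
    rintro w (hw | hw)
    · exact (both' (sA hw).1 (sA hw).2).2
    · exact (both' (sB hw).1 (sB hw).2).2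
  obtain ⟨ε₃, hε₃, -, R3⟩ := exists_su R2 cK pK (m := g)
    (fun w hw => (su_off (fun h5 => s3' w h5 (hKh hw)) g).2
      ((su_off (fun h5 => s2' w h5 (hKh hw)) g).2 (hKg hw)))
    (by
      have a1 : ∀ {w}, w ∈ Nei A → w ∉ X2 g := fun {w} hw h5 =>
        hg2.2 (su_in (sub_no hε₁ hw) (su_ne hg2.1 h5).1)
      have b1 : ∀ {w}, w ∈ Nei B → w ∉ X2 g := fun {w} hw h5 =>
        hg2.1 (su_in (sub_no hε₂ hw) h5)
      rintro w (hw | hw)
      · exact ⟨a1 (Or.inl (by rwa [add_sub_cancel_right])),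
          a1 (Or.inr (by rwa [sub_add_cancel]))⟩
      · exact ⟨b1 (Or.inl (by rwa [add_sub_cancel_right])),
          b1 (Or.inr (by rwa [sub_add_cancel]))⟩) one_pos
  set Y := Su X2 (A ∪ B) g ε₃ with hY
  -- `h` does not meet a pair letter in the new word
  have key : ∀ {u j}, (j = 2 ∨ j = 3) → u ∉ No (A ∪ B) ε₃ → u ∈ X2 h → u ∉ X2 j := by
    intro u j hj hu h1 h2
    have k1 : u ∈ X h := h_in h1
    have k2 : u ∉ A ∪ B := fun h5 => hu (sub_no hε₃ h5)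
    rcases hj with rfl | rfl
    · rcases h2 with h3 | ⟨-, h3⟩
      · exact k2 (Or.inl ⟨k1, (su_ne (by decide) h3.1).1⟩)
      · exact s3' u h3 k1
    · obtain ⟨h3, -⟩ := su_ne (m := 2) (by decide) h2
      rcases h3 with h4 | ⟨-, h4⟩
      · exact k2 (Or.inr ⟨k1, h4.1⟩)
      · exact s2' u h4 k1
  have nm : ∀ {u j}, (j = 2 ∨ j = 3) → u ∈ Y h → u ∉ Y j := by
    intro u j hj h1 h2
    obtain ⟨k1, k2⟩ := su_ne hne h1
    obtain ⟨k3, -⟩ := su_ne (m := g) (by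
      rcases hj with rfl | rfl
      · exact hg2.1.symm
      · exact hg2.2.symm) h2
    exact key hj k2 k1 k3
  have RT : RawW Y := by
    refine ⟨R3.closed, R3.cover, R3.per, R3.anti, R3.ac, ?_, R3.own, R3.own', R3.swap, R3.dbl⟩
    intro u l m n h1 h2 h3
    have f1 : ∀ j, (j = 2 ∨ j = 3) → ¬ (u ∈ Y h ∧ u ∈ Y j) := fun j hj h5 => nm hj h5.1 h5.2
    have f2 := f1 2 (Or.inl rfl)
    have f3 := f1 3 (Or.inr rfl)
    have f4 : ¬ (u ∈ Y 2 ∧ u ∈ Y 3) := fun h5 => R3.ac u h5.1 h5.2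
    by_contra hc
    push Not at hc
    rcases hgh with ⟨rfl, rfl⟩ | ⟨rfl, rfl⟩ <;>
      rcases distinct3 (fun i => u ∈ Y i) l m n hc.1 hc.2.1 hc.2.2 h1 h2 h3 with
        h5 | h5 | h5 | h5
    exacts [f2 ⟨h5.2.1, h5.2.2⟩, f3 ⟨h5.2.1, h5.2.2⟩, f4 ⟨h5.2.1, h5.2.2⟩, f4 ⟨h5.2.1, h5.2.2⟩,
      f2 ⟨h5.1, h5.2.2⟩, f3 ⟨h5.1, h5.2.2⟩, f4 ⟨h5.2.1, h5.2.2⟩, f4 ⟨h5.2.1, h5.2.2⟩]
  rcases hgh with ⟨rfl, rfl⟩ | ⟨rfl, rfl⟩
  · obtain ⟨u, h1, h2 | h2⟩ := rawW_L1f RT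
    · exact nm (Or.inl rfl) h1 h2
    · exact nm (Or.inr rfl) h1 h2
  · obtain ⟨u, h1, h2 | h2⟩ := RT.L1e
    · exact nm (Or.inl rfl) h1 h2
    · exact nm (Or.inr rfl) h1 h2

/-- the triple points of a word are as in `Trp` -/
theorem PreW.trp (R : PreW X) : Trp X where
  two := fun u l m n h1 h2 h3 => by
    by_contra hc
    push Not at hc
    have h4 : ¬ (u ∈ X 2 ∧ u ∈ X 3) := fun h5 => R.ac u h5.1 h5.2
    rcases distinct3 (fun i => u ∈ X i) l m n hc.1 hc.2.1 hc.2.2.1 h1 h2 h3 with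
      h5 | h5 | h5 | h5
    exacts [hc.2.2.2 h5.1 h5.2.1, hc.2.2.2 h5.1 h5.2.1, h4 ⟨h5.2.1, h5.2.2⟩, h4 ⟨h5.2.1, h5.2.2⟩]
  nb := fun u j hj h0 h1 h2 => by
    have h3 : ∀ l, l ≠ oth j → u ∈ X l := by
      intro l hl
      rcases cases4 l j hj with rfl | rfl | rfl | rfl
      · exact h0
      · exact h1
      · exact h2
      · exact absurd rfl hl
    have e : u - 1 + 1 = u := by ring
    refine ⟨⟨?_, ?_⟩, fun h5 => ?_, fun h5 => ?_⟩
    · obtain ⟨l, hl⟩ := R.cover (u + 1)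
      by_cases hl3 : l = oth j
      · rw [← hl3]; exact hl
      obtain ⟨m, hm, hmu⟩ := R.own' u l (h3 l hl3) hl
      by_cases hm3 : m = oth j
      · rw [← hm3]; exact hmu
      · exact absurd (R.swap u m l (h3 m hm3) hmu (h3 l hl3) hl) hm
    · obtain ⟨l, hl⟩ := R.cover (u - 1)
      by_cases hl3 : l = oth j
      · rw [← hl3]; exact hl
      obtain ⟨m, hm, hmu⟩ := R.own (u - 1) l hl (by rw [e]; exact h3 l hl3)
      by_cases hm3 : m = oth j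
      · rw [← hm3]; exact hmu
      · exact absurd (R.swap (u - 1) m l hmu (by rw [e]; exact h3 m hm3) hl
          (by rw [e]; exact h3 l hl3)) hm
    · exact absurd (R.swap u 0 1 h0 h5.1 h1 h5.2) (by decide)
    · exact absurd (R.swap (u - 1) 0 1 h5.1 (by rw [e]; exact h0) h5.2 (by rw [e]; exact h1))
        (by decide)

/-- **L1x**: the letter `1` meets a pair letter at a point without the letter `0`. -/
theorem PreW.L1x (R : PreW X) : ∃ u, u ∈ X 1 ∧ u ∉ X 0 ∧ (u ∈ X 2 ∨ u ∈ X 3) := by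
  obtain ⟨u, h1, h2, h3⟩ := l1_clean R R.trp (g := 0) (h := 1) (Or.inl ⟨rfl, rfl⟩)
  exact ⟨u, h1, h3, h2⟩

/-- **L1x**: the letter `0` meets a pair letter at a point without the letter `1`. -/
theorem PreW.L1x' (R : PreW X) : ∃ u, u ∈ X 0 ∧ u ∉ X 1 ∧ (u ∈ X 2 ∨ u ∈ X 3) := by
  obtain ⟨u, h1, h2, h3⟩ := l1_clean R R.trp (g := 1) (h := 0) (Or.inr ⟨rfl, rfl⟩)
  exact ⟨u, h1, h3, h2⟩

theorem Pre.L1x (R : Pre X) : ∃ u, u ∈ X 1 ∧ u ∉ X 0 ∧ (u ∈ X 2 ∨ u ∈ X 3) := R.preW.L1x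

theorem Pre.L1x' (R : Pre X) : ∃ u, u ∈ X 0 ∧ u ∉ X 1 ∧ (u ∈ X 2 ∨ u ∈ X 3) := R.preW.L1x'

end trp

end Vale.Agent.P032.H350
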