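import Vale.Agent.P032.H299.SymW

/-!
# P032: at most one contact `e|A` and at most one contact `f|C` is impossible

`RawW.L2` is the case of exactly one clean end of each of the two types.  Here the cases in which one of
the two types does not occur (`no_zero`, `no_zeroQ`, `no_zeroV`) and the union of all cases (`W2r`).
-/

open Set Filter Topology

namespace Vale.Agent.P032.H350

open Vale.Agent.P032.Words

/-- no component is fixed by the rotation -/
theorem chkRot2 : chkRot T2 = true := by decide +kernel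

/-- one move `f|C` does not rotate -/
def chkQ0 : Bool :=
  (List.range 4096).all fun n => !legN n || !relN (rq 0) (cN T2 n) (cN T2 (rotN n))

theorem chkQ0_true : chkQ0 = true := by decide +kernel

theorem not_rq0 {h : Hx} (h1 : Leg4 h) : relN (rq 0) (cp h) (cp (rot h)) = true → False := by
  intro h2
  have a := all_range chkQ0_true (code_lt h)
  rw [legN_code h1, Bool.not_true, Bool.false_or, ← code_rot] at a
  unfold cp at h2
  rw [h2] at a
  exact absurd a (by simp)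

variable {X : Fin 4 → Set ℝ}

/-- no contacts `e|A`, `f|C` -/
theorem no_zero (w : RawW X) (h02 : ∀ u, u ∈ X 0 → u ∉ X 2) (h13 : ∀ u, u ∈ X 1 → u ∉ X 3) :
    False := by
  have hfree : ∀ u ∈ (univ : Set ℝ), ∀ k : Fin 6, ∀ a b : Fin 4, u + (k.val : ℝ) ∈ X a →
      u + (k.val : ℝ) ∈ X b → Fr a b := by
    intro u _ k a b ha hb
    rcases nonfree w.ac ha hb with h | ⟨h1, h2⟩ | ⟨h1, h2⟩
    · exact h
    · exact absurd h2 (h02 _ h1)
    · exact absurd h2 (h13 _ h1)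
  have key := w.const_Ioo (cmp := cp) cp_step Fr.refl isPreconnected_univ hfree
    (mem_univ (0 : ℝ)) (mem_univ (0 + 1))
  rw [w.st_add_one] at key
  exact rot_of_chk chkRot2 (w.leg_st 0) key.symm

/-- no contact `e|A`, one end `f|C` -/
theorem no_zeroQ (w : RawW X) (h02 : ∀ u, u ∈ X 0 → u ∉ X 2) {Q : ℝ} (hQ : End X 1 3 Q)
    (hQu : ∀ u, u ∈ X 1 → u ∈ X 3 → ∃ n : ℤ, u = Q + 6 * n) : False := by
  classical
  have R : RawV X := ⟨w, fun u h2 h0 => absurd h2 (h02 u h0), fun u _ _ _ _ h0 h2 => h02 _ h0 h2⟩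
  have hfree : ∀ (s : ℝ), 0 ≤ s → s < 1 → ∀ (j : Fin 6) (x y : Fin 4), Q + s + (j.val : ℝ) ∈ X x →
      Q + s + (j.val : ℝ) ∈ X y → ¬ (s = 0 ∧ j = 0) → Fr x y := by
    intro s hs0 hs1 j x y hx hy n1
    rcases nonfree w.ac hx hy with h | ⟨h0, h2⟩ | ⟨h1, h3⟩
    · exact h
    · exact absurd h2 (h02 _ h0)
    · obtain ⟨n, hn⟩ := hQu _ h1 h3
      have : s + (j.val : ℝ) = 0 + ((0 : Fin 6).val : ℝ) + 6 * (n : ℝ) := by
        have : (((0 : Fin 6).val : ℕ) : ℝ) = 0 := by simp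
        rw [this]; linarith
      exact absurd (eq_of_mod hs0 hs1 le_rfl one_pos this) n1
  obtain ⟨a, b, hM, hab⟩ : ∃ a b : Fin 4, Mark X a b Q ∧ ((a = 1 ∧ b = 3) ∨ (a = 3 ∧ b = 1)) := by
    rcases hQ with h | h
    · exact ⟨1, 3, h, Or.inl ⟨rfl, rfl⟩⟩
    · exact ⟨3, 1, h, Or.inr ⟨rfl, rfl⟩⟩
  have e0 : Q + ((0 : Fin 6).val : ℝ) = Q := by simp
  obtain ⟨h, hleg, hins, -, hr, hF⟩ := R.jump (free := Fr) (cmp := cp) cp_step Fr.refl {0}
    (fun _ => a) (fun _ => b)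
    (by intro k hk; rw [Finset.mem_singleton] at hk; rw [hk, e0]; exact hM)
    (by intro k hk; exact Or.inr (Or.inr hab))
    (by
      intro k hk x y hx hy
      rw [Finset.mem_singleton] at hk
      exact hfree 0 le_rfl one_pos k x y (by simpa using hx) (by simpa using hy)
        (fun h => hk h.2))
  obtain ⟨e1, e2⟩ := hins ∅ 0 (Finset.mem_singleton_self _) (Finset.notMem_empty _)
  have e3 : insert (0 : Fin 6) (∅ : Finset (Fin 6)) = {0} := rfl
  rw [e3] at e2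
  have key := w.seg (free := Fr) (cmp := cp) cp_step Fr.refl (a := Q) (b := Q + 1) (by linarith) (by
    intro u hu j x y hx hy
    refine hfree (u - Q) (by linarith [hu.1]) (by linarith [hu.2]) j x y ?_ ?_ ?_
    · have e : Q + (u - Q) = u := by ring
      rw [e]; exact hx
    · have e : Q + (u - Q) = u := by ring
      rw [e]; exact hy
    · rintro ⟨h1, -⟩; linarith [hu.1]) hr hF
  refine not_rq0 (hleg ∅) ?_
  rw [← key, e2]
  have h5 := hleg {0}
  rw [e2] at h5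
  exact rq_step (hleg ∅) h5 e1 hab

/-- exchange of `e, A` with `f, C` -/
def ex : Fin 4 → Fin 4 := ![1, 0, 3, 2]

theorem ex_inj : ∀ l m, ex l = ex m → l = m := by decide

theorem ex_ex : ∀ l, ex (ex l) = l := by decide

theorem ex_lt : ∀ l, (ex l).val < 2 → l.val < 2 := by decide

theorem rawW_ex (w : RawW X) : RawW (fun l => X (ex l)) where
  closed := fun l => w.closed _
  cover := fun u => by
    obtain ⟨l, hl⟩ := w.cover u
    exact ⟨ex l, by rw [ex_ex]; exact hl⟩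
  per := fun l u => w.per _ u
  anti := fun u h1 h2 => by
    have h3 : u + 3 + 3 = u + 6 := by ring
    refine w.anti (u + 3) h2 ?_
    rw [h3, w.per]
    exact h1
  ac := fun u h1 h2 => w.ac u h2 h1
  two := fun u l m n h1 h2 h3 => by
    rcases w.two u _ _ _ h1 h2 h3 with h | h | h
    · exact Or.inl (ex_inj _ _ h)
    · exact Or.inr (Or.inl (ex_inj _ _ h))
    · exact Or.inr (Or.inr (ex_inj _ _ h))
  own := fun u l h1 h2 => by
    obtain ⟨m, hm, hm'⟩ := w.own u _ h1 h2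
    exact ⟨ex m, fun h => hm (by rw [← h, ex_ex]), by rw [ex_ex]; exact hm'⟩
  own' := fun u l h1 h2 => by
    obtain ⟨m, hm, hm'⟩ := w.own' u _ h1 h2
    exact ⟨ex m, fun h => hm (by rw [← h, ex_ex]), by rw [ex_ex]; exact hm'⟩
  swap := fun u l m h1 h2 h3 h4 => ex_inj _ _ (w.swap u _ _ h1 h2 h3 h4)
  dbl := fun u l m hlm h1 h2 h3 h4 => by
    obtain ⟨k1, k2⟩ := w.dbl u _ _ (fun h => hlm (ex_inj _ _ h)) h1 h2 h3 h4
    exact ⟨ex_lt _ k1, ex_lt _ k2⟩

theorem mark_ex {a b : Fin 4} {V : ℝ} (h : Mark X (ex a) (ex b) V) :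
    Mark (fun l => X (ex l)) a b V where
  mem_a := h.mem_a
  mem_b := h.mem_b
  only := fun l hl => by
    rcases h.only _ hl with h1 | h1
    · exact Or.inl (ex_inj _ _ h1)
    · exact Or.inr (ex_inj _ _ h1)
  left := h.left
  right := h.right

theorem end_ex {a b : Fin 4} {V : ℝ} (h : End X (ex a) (ex b) V) :
    End (fun l => X (ex l)) a b V := by
  rcases h with h | h
  · exact Or.inl (mark_ex h)
  · exact Or.inr (mark_ex h)

/-- one end `e|A`, no contact `f|C` -/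
theorem no_zeroV (w : RawW X) (h13 : ∀ u, u ∈ X 1 → u ∉ X 3) {V : ℝ} (hV : End X 0 2 V)
    (hVu : ∀ u, u ∈ X 0 → u ∈ X 2 → ∃ n : ℤ, u = V + 6 * n) : False :=
  no_zeroQ (rawW_ex w) (fun u h1 h2 => h13 u h1 h2) (Q := V) (end_ex (a := 1) (b := 3) hV)
    (fun u h1 h2 => hVu u h1 h2)

theorem perZ_W (w : RawW X) (n : ℤ) (l : Fin 4) (u : ℝ) : u + 6 * (n : ℝ) ∈ X l ↔ u ∈ X l :=
  w.perZ n l u

/-- **At most one contact `e|A` and at most one contact `f|C` is impossible.** -/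
theorem W2r (w : RawW X) (V Q : ℝ) (hVu : ∀ u, u ∈ X 0 → u ∈ X 2 → ∃ n : ℤ, u = V + 6 * n)
    (hQu : ∀ u, u ∈ X 1 → u ∈ X 3 → ∃ n : ℤ, u = Q + 6 * n)
    (hV : V ∈ X 0 → V ∈ X 2 → End X 0 2 V) (hQ : Q ∈ X 1 → Q ∈ X 3 → End X 1 3 Q) : False := by
  have a1 : ¬ (V ∈ X 0 ∧ V ∈ X 2) → ∀ u, u ∈ X 0 → u ∉ X 2 := by
    intro h u h0 h2
    obtain ⟨n, rfl⟩ := hVu u h0 h2
    exact h ⟨(w.perZ n 0 V).1 h0, (w.perZ n 2 V).1 h2⟩
  have a2 : ¬ (Q ∈ X 1 ∧ Q ∈ X 3) → ∀ u, u ∈ X 1 → u ∉ X 3 := by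
    intro h u h0 h2
    obtain ⟨n, rfl⟩ := hQu u h0 h2
    exact h ⟨(w.perZ n 1 Q).1 h0, (w.perZ n 3 Q).1 h2⟩
  by_cases h1 : V ∈ X 0 ∧ V ∈ X 2
  · by_cases h2 : Q ∈ X 1 ∧ Q ∈ X 3
    · exact w.L2 (hV h1.1 h1.2) (hQ h2.1 h2.2) hVu hQu
    · exact no_zeroV w (a2 h2) (hV h1.1 h1.2) hVu
  · by_cases h2 : Q ∈ X 1 ∧ Q ∈ X 3
    · exact no_zeroQ w (a1 h1) (hQ h2.1 h2.2) hQu
    · exact no_zero w (a1 h1) (a2 h2)

end Vale.Agent.P032.H350
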